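import Vale.Agent.P352.NC.Defs

/-!
# P352: null-plane charges imply conformal invariance, block E10: null vectors span
-/

set_option linter.all false

noncomputable section

open MeasureTheory Filter Topology SchwartzMap Complex
open scoped SchwartzMap ComplexConjugate ContDiff LineDeriv

namespace Vale.Agent.P352.NC

open GF (Ix V Fn Fld Theory Sch IsLor bas eta o sim pd tr ev bar)
open H246 H496 H755 H15 H846 H246R H746 N86
open UniformSpace (Completion)

/-- the null vectors `c` with `c·(1,-1,0,0) = 1` -/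
def e10_cV (p : ℝ × ℝ) : V :=
  ![(1 + (p.1 ^ 2 + p.2 ^ 2)) / 2, (1 - (p.1 ^ 2 + p.2 ^ 2)) / 2, p.1, p.2]

lemma e10_null (p : ℝ × ℝ) : IsNull (e10_cV p) := by
  refine ⟨?_, ?_⟩
  · simp [gm, e10_cV]; ring
  · show 0 < (1 + (p.1 ^ 2 + p.2 ^ 2)) / 2
    positivity

lemma e10_smul {a : V} (ha : IsNull a) {r : ℝ} (hr : 0 < r) : IsNull (r • a) := by
  refine ⟨?_, mul_pos hr ha.2⟩
  have h1 : GF.mdot (r • a) (r • a) = r ^ 2 * GF.mdot a a := by
    simp only [gf_mdot, Pi.smul_apply, smul_eq_mul]; ring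
  rw [h1, ha.1, mul_zero]

/-- all but one of the vectors `e10_cV p` have a positive product with a null vector -/
lemma e10_pos {c : V} (hc : IsNull c) {p : ℝ × ℝ}
    (hp : p ≠ (c 2 / (c 0 + c 1), c 3 / (c 0 + c 1))) : 0 < GF.mdot c (e10_cV p) := by
  have h : c 0 ^ 2 = c 1 ^ 2 + c 2 ^ 2 + c 3 ^ 2 := by
    have := hc.1
    rw [gm] at this
    linarith
  have h0 : 0 < c 0 := hc.2
  have h01 : 0 ≤ c 0 + c 1 := by
    by_contra hn
    push Not at hn
    have h1 : c 0 < -c 1 := by linarith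
    nlinarith [sq_nonneg (c 2), sq_nonneg (c 3)]
  have e : GF.mdot c (e10_cV p) = (1 + (p.1 ^ 2 + p.2 ^ 2)) / 2 * c 0 -
      (1 - (p.1 ^ 2 + p.2 ^ 2)) / 2 * c 1 - p.1 * c 2 - p.2 * c 3 := by
    simp [gm, e10_cV]; ring
  rw [e]
  rcases h01.eq_or_lt with h1 | h1
  · have h2 : c 2 = 0 := by
      have : c 2 ^ 2 + c 3 ^ 2 = 0 := by nlinarith
      nlinarith [sq_nonneg (c 2), sq_nonneg (c 3)]
    have h3 : c 3 = 0 := by
      have : c 2 ^ 2 + c 3 ^ 2 = 0 := by nlinarith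
      nlinarith [sq_nonneg (c 2), sq_nonneg (c 3)]
    have h4 : c 1 = -c 0 := by linarith
    rw [h2, h3, h4]
    nlinarith
  · set s := c 0 + c 1 with hs
    have key : 2 * s * ((1 + (p.1 ^ 2 + p.2 ^ 2)) / 2 * c 0 -
      (1 - (p.1 ^ 2 + p.2 ^ 2)) / 2 * c 1 - p.1 * c 2 - p.2 * c 3) =
        (s * p.1 - c 2) ^ 2 + (s * p.2 - c 3) ^ 2 := by
      rw [hs]
      linear_combination h
    have hpos : 0 < (s * p.1 - c 2) ^ 2 + (s * p.2 - c 3) ^ 2 := by
      by_contra hn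
      push Not at hn
      have h5 : s * p.1 - c 2 = 0 := by
        nlinarith [sq_nonneg (s * p.1 - c 2), sq_nonneg (s * p.2 - c 3)]
      have h6 : s * p.2 - c 3 = 0 := by
        nlinarith [sq_nonneg (s * p.1 - c 2), sq_nonneg (s * p.2 - c 3)]
      apply hp
      refine Prod.ext ?_ ?_
      · show p.1 = c 2 / s
        field_simp
        linarith
      · show p.2 = c 3 / s
        field_simp
        linarith
    rw [← key] at hpos
    by_contra hn
    push Not at hn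
    nlinarith

lemma e10_cont (m : Ix) : Continuous fun p : ℝ × ℝ => e10_cV p m := by
  fin_cases m <;> simp [e10_cV] <;> fun_prop

/-- a continuous function that vanishes off one point -/
lemma e10_zero {F : ℝ × ℝ → ℂ} (hF : Continuous F) {q : ℝ × ℝ} (h : ∀ p, p ≠ q → F p = 0)
    (p : ℝ × ℝ) : F p = 0 := by
  have hd : Dense ({q}ᶜ : Set (ℝ × ℝ)) := dense_compl_singleton q
  have hz : F = fun _ => 0 := Continuous.ext_on hd hF continuous_const fun p hp => h p hp
  exact congrFun hz p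

/-- normalisation of the time component -/
lemma e10_nor {a : V} (ha : IsNull a) {p : ℝ × ℝ}
    (hp : p ≠ (a 2 / (a 0 + a 1), a 3 / (a 0 + a 1))) :
    IsNull ((e10_cV p 0)⁻¹ • e10_cV p) ∧ ((e10_cV p 0)⁻¹ • e10_cV p) o = 1 ∧
      0 < GF.mdot a ((e10_cV p 0)⁻¹ • e10_cV p) := by
  have h0 : 0 < e10_cV p 0 := (e10_null p).2
  refine ⟨e10_smul (e10_null p) (inv_pos.2 h0), ?_, ?_⟩
  · show (e10_cV p 0)⁻¹ * e10_cV p 0 = 1
    exact inv_mul_cancel₀ h0.ne'
  · have e : GF.mdot a ((e10_cV p 0)⁻¹ • e10_cV p) = (e10_cV p 0)⁻¹ * GF.mdot a (e10_cV p) := by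
      simp only [gf_mdot, Pi.smul_apply, smul_eq_mul]; ring
    rw [e]
    exact mul_pos (inv_pos.2 h0) (e10_pos ha hp)

theorem span_J {a : V} (ha : IsNull a) {z : Ix → ℂ}
    (hz : ∀ b, IsNull b → b o = 1 → 0 < GF.mdot a b →
      ∑ m, ((GF.eta m * b m : ℝ) : ℂ) * z m = 0) (m : Ix) : z m = 0 := by
  set F : ℝ × ℝ → ℂ := fun p => ∑ m, ((GF.eta m * e10_cV p m : ℝ) : ℂ) * z m with hF
  have hcont : Continuous F := by
    refine continuous_finset_sum _ fun m _ => ?_
    exact (Complex.continuous_ofReal.comp (continuous_const.mul (e10_cont m))).mul continuous_const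
  have hzero : ∀ p, F p = 0 := by
    refine e10_zero hcont (q := (a 2 / (a 0 + a 1), a 3 / (a 0 + a 1))) fun p hp => ?_
    obtain ⟨h1, h2, h3⟩ := e10_nor ha hp
    have h4 := hz _ h1 h2 h3
    have h0 : ((e10_cV p 0 : ℝ) : ℂ) ≠ 0 := by
      have : 0 < e10_cV p 0 := (e10_null p).2
      exact_mod_cast this.ne'
    have e : F p = ((e10_cV p 0 : ℝ) : ℂ) * ∑ m, ((GF.eta m *
        ((e10_cV p 0)⁻¹ • e10_cV p) m : ℝ) : ℂ) * z m := by
      rw [hF, Finset.mul_sum]
      refine Finset.sum_congr rfl fun m _ => ?_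
      simp only [Pi.smul_apply, smul_eq_mul]
      push_cast
      field_simp
    rw [e, h4, mul_zero]
  have e : ∀ x y : ℝ, (((1 + (x ^ 2 + y ^ 2)) / 2 : ℝ) : ℂ) * z 0 -
      (((1 - (x ^ 2 + y ^ 2)) / 2 : ℝ) : ℂ) * z 1 - (x : ℂ) * z 2 - (y : ℂ) * z 3 = 0 := by
    intro x y
    have := hzero (x, y)
    rw [hF] at this
    simp only [Fin.sum_univ_four, eta_0, eta_1, eta_2, eta_3] at this
    have c0 : e10_cV (x, y) 0 = (1 + (x ^ 2 + y ^ 2)) / 2 := rfl
    have c1 : e10_cV (x, y) 1 = (1 - (x ^ 2 + y ^ 2)) / 2 := rfl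
    have c2 : e10_cV (x, y) 2 = x := rfl
    have c3 : e10_cV (x, y) 3 = y := rfl
    rw [c0, c1, c2, c3] at this
    push_cast at this ⊢
    linear_combination this
  have e0 := e 0 0
  have e1 := e 1 0
  have e2 := e (-1) 0
  have e3 := e 0 1
  have e4 := e 0 (-1)
  push_cast at e0 e1 e2 e3 e4
  have f2 : z 2 = 0 := by linear_combination (e2 - e1) / 2
  have f3 : z 3 = 0 := by linear_combination (e4 - e3) / 2
  have f0 : z 0 = 0 := by linear_combination e1 + f2
  have f1 : z 1 = 0 := by linear_combination (-2) * e0 + f0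
  fin_cases m
  · exact f0
  · exact f1
  · exact f2
  · exact f3

theorem span_T {a : V} (ha : IsNull a) {z : Ix → Ix → ℂ} (hsym : ∀ m n, z m n = z n m)
    (htr : ∑ m, (GF.eta m : ℂ) * z m m = 0)
    (hz : ∀ b, IsNull b → b o = 1 → 0 < GF.mdot a b →
      ∑ m, ∑ n, ((GF.eta m * b m * (GF.eta n * b n) : ℝ) : ℂ) * z m n = 0) (m n : Ix) :
    z m n = 0 := by
  set F : ℝ × ℝ → ℂ := fun p => ∑ m, ∑ n, ((GF.eta m * e10_cV p m *
    (GF.eta n * e10_cV p n) : ℝ) : ℂ) * z m n with hF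
  have hcont : Continuous F := by
    refine continuous_finset_sum _ fun m _ => continuous_finset_sum _ fun n _ => ?_
    exact (Complex.continuous_ofReal.comp ((continuous_const.mul (e10_cont m)).mul
      (continuous_const.mul (e10_cont n)))).mul continuous_const
  have hzero : ∀ p, F p = 0 := by
    refine e10_zero hcont (q := (a 2 / (a 0 + a 1), a 3 / (a 0 + a 1))) fun p hp => ?_
    obtain ⟨h1, h2, h3⟩ := e10_nor ha hp
    have h4 := hz _ h1 h2 h3
    have h0 : ((e10_cV p 0 : ℝ) : ℂ) ≠ 0 := by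
      have : 0 < e10_cV p 0 := (e10_null p).2
      exact_mod_cast this.ne'
    have e : F p = ((e10_cV p 0 : ℝ) : ℂ) ^ 2 * ∑ m, ∑ n, ((GF.eta m *
        ((e10_cV p 0)⁻¹ • e10_cV p) m * (GF.eta n * ((e10_cV p 0)⁻¹ • e10_cV p) n) : ℝ) : ℂ) *
          z m n := by
      rw [hF, Finset.mul_sum]
      refine Finset.sum_congr rfl fun m _ => ?_
      rw [Finset.mul_sum]
      refine Finset.sum_congr rfl fun n _ => ?_
      simp only [Pi.smul_apply, smul_eq_mul]
      push_cast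
      field_simp
    rw [e, h4, mul_zero]
  have s10 := hsym 1 0
  have s20 := hsym 2 0
  have s30 := hsym 3 0
  have s21 := hsym 2 1
  have s31 := hsym 3 1
  have s32 := hsym 3 2
  have e : ∀ x y : ℝ, (((1 + (x ^ 2 + y ^ 2)) / 2 : ℝ) : ℂ) ^ 2 * z 0 0 +
      (((1 - (x ^ 2 + y ^ 2)) / 2 : ℝ) : ℂ) ^ 2 * z 1 1 + (x : ℂ) ^ 2 * z 2 2 +
      (y : ℂ) ^ 2 * z 3 3 -
      2 * (((1 + (x ^ 2 + y ^ 2)) / 2 : ℝ) : ℂ) * (((1 - (x ^ 2 + y ^ 2)) / 2 : ℝ) : ℂ) * z 0 1 -
      2 * (((1 + (x ^ 2 + y ^ 2)) / 2 : ℝ) : ℂ) * x * z 0 2 -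
      2 * (((1 + (x ^ 2 + y ^ 2)) / 2 : ℝ) : ℂ) * y * z 0 3 +
      2 * (((1 - (x ^ 2 + y ^ 2)) / 2 : ℝ) : ℂ) * x * z 1 2 +
      2 * (((1 - (x ^ 2 + y ^ 2)) / 2 : ℝ) : ℂ) * y * z 1 3 + 2 * x * y * z 2 3 = 0 := by
    intro x y
    have := hzero (x, y)
    rw [hF] at this
    simp only [Fin.sum_univ_four, eta_0, eta_1, eta_2, eta_3, s10, s20, s30, s21, s31, s32] at this
    have c0 : e10_cV (x, y) 0 = (1 + (x ^ 2 + y ^ 2)) / 2 := rfl
    have c1 : e10_cV (x, y) 1 = (1 - (x ^ 2 + y ^ 2)) / 2 := rfl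
    have c2 : e10_cV (x, y) 2 = x := rfl
    have c3 : e10_cV (x, y) 3 = y := rfl
    rw [c0, c1, c2, c3] at this
    push_cast at this ⊢
    linear_combination this
  simp only [Fin.sum_univ_four, eta_0, eta_1, eta_2, eta_3] at htr
  push_cast at htr
  have e0 := e 0 0
  have p1 := e 1 0
  have p2 := e (-1) 0
  have q1 := e 0 1
  have q2 := e 0 (-1)
  have r1 := e 2 0
  have r2 := e (-2) 0
  have t1 := e 0 2
  have t2 := e 0 (-2)
  have w1 := e 1 1
  push_cast at e0 p1 p2 q1 q2 r1 r2 t1 t2 w1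
  have f02 : z 0 2 = 0 := by linear_combination (p2 - p1) / 4
  have f03 : z 0 3 = 0 := by linear_combination (q2 - q1) / 4
  have g22 : z 2 2 = -z 0 0 := by linear_combination (p1 + p2) / 2
  have g33 : z 3 3 = -z 0 0 := by linear_combination (q1 + q2) / 2
  have g11 : z 1 1 = 3 * z 0 0 := by linear_combination -htr - g22 - g33
  have g01 : z 0 1 = 2 * z 0 0 := by linear_combination (-2) * e0 + g11 / 2
  have f00 : z 0 0 = 0 := by
    linear_combination (r1 + r2) / 48 - (9 / 4) / 24 * g11 - 4 / 24 * g22 - (15 / 2) / 24 * g01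
  have f12 : z 1 2 = 0 := by
    linear_combination (r2 - r1) / 12 - (5 / 3) * f02
  have f13 : z 1 3 = 0 := by
    linear_combination (t2 - t1) / 12 - (5 / 3) * f03
  have f11 : z 1 1 = 0 := by linear_combination g11 + 3 * f00
  have f22 : z 2 2 = 0 := by linear_combination g22 - f00
  have f33 : z 3 3 = 0 := by linear_combination g33 - f00
  have f01 : z 0 1 = 0 := by linear_combination g01 + 2 * f00
  have f23 : z 2 3 = 0 := by
    linear_combination w1 / 2 - 9 / 8 * f00 - 1 / 8 * f11 - 1 / 2 * f22 - 1 / 2 * f33 -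
      3 / 4 * f01 + 3 / 2 * f02 + 3 / 2 * f03 + 1 / 2 * f12 + 1 / 2 * f13
  fin_cases m <;> fin_cases n
  · exact f00
  · exact f01
  · exact f02
  · exact f03
  · exact s10.trans f01
  · exact f11
  · exact f12
  · exact f13
  · exact s20.trans f02
  · exact s21.trans f12
  · exact f22
  · exact f23
  · exact s30.trans f03
  · exact s31.trans f13
  · exact s32.trans f23
  · exact f33

end Vale.Agent.P352.NC

end
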