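import Vale.Agent.P352.NC.E5

/-!
# P352: the values of the virial current and of the stress tensor
-/

set_option linter.all false

noncomputable section

open MeasureTheory Filter Topology SchwartzMap Complex
open scoped SchwartzMap ComplexConjugate ContDiff LineDeriv

namespace Vale.Agent.P352.NC

open GF (Ix V Fn Fld Theory Sch IsLor bas eta o sim pd tr ev bar)
open H246 H496 H755 H15 H846 H246R H746 N86
open UniformSpace (Completion)

variable {D : Type*} [NormedAddCommGroup D] [InnerProductSpace ℂ D]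
variable {Q : GF.Theory D} {T : Ix → Ix → GF.Fld D} {J : Ix → GF.Fld D}
variable {A : (V → V) → D → D}

theorem pv_J (hJ : IsVirial Q T J) (R : H15.Rep Q A) :
    ∃ lj : Ix → D → ℂ, (∀ m (F : 𝓢(Mink, ℂ)) v, inner ℂ (J m (fl F) Q.vac) v =
        ∫ x : Mink, conj (F x) * lj m (U1 Q (-x) v)) ∧
      (∀ m v, Continuous fun x : Mink => lj m (U1 Q (-x) v)) ∧
      PV Q A (fun b f => ∑ m, ((GF.eta m * b m : ℝ) : ℂ) • J m f Q.vac)
        (fun b v => ∑ m, ((GF.eta m * b m : ℝ) : ℂ) * lj m v) := by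
  have hf : ∀ m, Q.fld (J m) := fun m => Q.bose_fld _ (hJ.bose m)
  have hE := PT.en_of R
  refine ⟨fun m => PT.vf Q (J m), fun m F v => ?_, fun m v => (PT.ptF_vf hE (hf m)).cont' v, ?_⟩
  · rw [← (PT.ptF_vf hE (hf m)).rep F v, Completion.inner_coe]
  · refine ⟨fun b => (PT.ptF_vc R hJ b).add, fun b => (PT.ptF_vc R hJ b).smul, fun b F v => ?_,
      fun b => (PT.ptF_vc R hJ b).cont', fun b => ?_, PT.vcR_Wd R hJ, fun L a b v hL hab => ?_⟩
    · have h := (PT.ptF_vc R hJ b).rep F v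
      rw [Completion.inner_coe] at h
      exact h
    · obtain ⟨φ, n, h⟩ := PT.one_exp (Q := Q) hE hf (fun m => GF.eta m * b m)
      refine ⟨‖φ‖, n, norm_nonneg _, fun v => ?_⟩
      show ‖∑ m, ((GF.eta m * b m : ℝ) : ℂ) * PT.vf Q (J m) v‖ ≤ _
      rw [h, pt]
      refine (norm_inner_le_norm _ _).trans ?_
      rw [Completion.norm_coe]
      exact le_rfl
    · have h := PT.vcR_cov R hJ one_pos hL one_ne_zero (a := a) (b := b)
        (by rw [hab, one_smul]) v
      rw [one_pow, mul_one, inv_one, ofReal_one, one_mul] at h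
      exact h

theorem pv_T (hT : Q.IsStress T) (R : H15.Rep Q A) :
    ∃ lt : Ix → Ix → D → ℂ, (∀ m n (F : 𝓢(Mink, ℂ)) v, inner ℂ (T m n (fl F) Q.vac) v =
        ∫ x : Mink, conj (F x) * lt m n (U1 Q (-x) v)) ∧
      (∀ m n v, Continuous fun x : Mink => lt m n (U1 Q (-x) v)) ∧
      PV Q A (fun b f => ∑ m, ∑ n, ((GF.eta m * b m * (GF.eta n * b n) : ℝ) : ℂ) •
          T m n f Q.vac)
        (fun b v => ∑ m, ∑ n, ((GF.eta m * b m * (GF.eta n * b n) : ℝ) : ℂ) * lt m n v) := by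
  have hf : ∀ m n, Q.fld (T m n) := fun m n => Q.bose_fld _ (hT.bose m n)
  have hE := PT.en_of R
  refine ⟨fun m n => PT.vf Q (T m n), fun m n F v => ?_,
    fun m n v => (PT.ptF_vf hE (hf m n)).cont' v, ?_⟩
  · rw [← (PT.ptF_vf hE (hf m n)).rep F v, Completion.inner_coe]
  · refine ⟨fun b => (PT.ptF_vtt R hT b).add, fun b => (PT.ptF_vtt R hT b).smul, fun b F v => ?_,
      fun b => (PT.ptF_vtt R hT b).cont', fun b => ?_, PT.vtt_Wd R hT, fun L a b v hL hab => ?_⟩
    · have h := (PT.ptF_vtt R hT b).rep F v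
      rw [Completion.inner_coe] at h
      exact h
    · obtain ⟨φ, n, h⟩ := PT.one_exp (Q := Q) hE (Φ := fun k : Ix × Ix => T k.1 k.2)
        (fun k => hf k.1 k.2) (fun k => GF.eta k.1 * b k.1 * (GF.eta k.2 * b k.2))
      refine ⟨‖φ‖, n, norm_nonneg _, fun v => ?_⟩
      have h2 := h v
      rw [Fintype.sum_prod_type] at h2
      show ‖∑ m, ∑ n, ((GF.eta m * b m * (GF.eta n * b n) : ℝ) : ℂ) * PT.vf Q (T m n) v‖ ≤ _
      rw [h2, pt]
      refine (norm_inner_le_norm _ _).trans ?_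
      rw [Completion.norm_coe]
      exact le_rfl
    · have h := PT.vtt_cov R hT one_pos hL one_ne_zero (a := a) (b := b)
        (by rw [hab, one_smul]) v
      rw [one_pow, one_pow, mul_one, inv_one, ofReal_one, one_mul] at h
      exact h

end Vale.Agent.P352.NC

end
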