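import Vale.Agent.P352.NC.E12

/-!
# P352: the null plane integrals of the trace vanish
-/

set_option linter.all false

noncomputable section

open MeasureTheory Filter Topology SchwartzMap Complex
open scoped SchwartzMap ComplexConjugate ContDiff LineDeriv

namespace Vale.Agent.P352.NC

open GF (Ix V Fn Fld Theory Sch IsLor bas eta o sim pd tr ev bar)
open H246 H496 H755 H15 H846 H246R H746 N86
open UniformSpace (Completion)

variable {D : Type*} [NormedAddCommGroup D] [InnerProductSpace ℂ D]
variable {Q : GF.Theory D} {T : Ix → Ix → GF.Fld D} {J : Ix → GF.Fld D}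
variable {A : (V → V) → D → D} {K : V → D → D}

lemma e13_zero {B : Fld D} (hB : Q.fld B) : B (fl (0 : 𝓢(Mink, ℂ))) Q.vac = 0 := by
  have h := (fcl hB Q.vac).map_zero
  exact h

lemma e13_single (hT : Q.IsStress T) (m n : Ix) (F : 𝓢(Mink, ℂ)) :
    tvec Q T (fun k l => if k = m then (if l = n then F else 0) else 0) =
      T m n (fl F) Q.vac := by
  have hB : ∀ m n, Q.fld (T m n) := fun m n => Q.bose_fld _ (hT.bose m n)
  unfold tvec
  rw [Finset.sum_eq_single m, Finset.sum_eq_single n]
  · simp
  · intro l _ hl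
    simp only [if_true, if_neg hl, e13_zero (hB m l)]
  · intro h
    exact absurd (Finset.mem_univ n) h
  · intro k _ hk
    refine Finset.sum_eq_zero fun l _ => ?_
    simp only [if_neg hk, e13_zero (hB k l)]
  · intro h
    exact absurd (Finset.mem_univ m) h

/-- the trace condition from the vanishing of `Xi` -/
theorem e13_trNull (hT : Q.IsStress T) (hJ : IsVirial Q T J) (h : NullCharges Q T J A K)
    (hz : ∀ (a x : V) (g : Ix → Ix → 𝓢(Mink, ℂ)), IsNull a → Xi A K a x (tvec Q T g) = 0) :
    H121.TrNull T := by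
  refine (trVac_iff hT hJ h).1 ?_
  intro a b κ ψ m n f w hA hf _ _
  obtain ⟨F, rfl⟩ := exists_fl hf
  have h1 := tg_lim hT hJ h hA (T m n (fl F) Q.vac) w
  have h2 := int_affine hA.2.2.2.2.2 (kh_cont h hA.1 hA.2.1 (T m n (fl F) Q.vac) w)
    (fun u t => kh_affine hT h hA.1 hA.2.1 hA.2.2.1 (fun F => by
      rw [← e13_single hT m n F]
      exact hz a b _ hA.1) F w u t)
  rw [h2, mul_zero, neg_zero] at h1
  exact h1

theorem e13_confInv (hT : Q.IsStress T) (hJ : IsVirial Q T J) (h : NullCharges Q T J A K)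
    (hz : ∀ (a x : V) (g : Ix → Ix → 𝓢(Mink, ℂ)), IsNull a → Xi A K a x (tvec Q T g) = 0) :
    N86.ConfInv Q T :=
  ((main_v9 hT hJ).1 h).2.1.1 (e13_trNull hT hJ h hz)

end Vale.Agent.P352.NC

end
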