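import Vale.Agent.P352.N86.K.LW0
import Vale.Agent.P352.N86.K.C1
import Vale.Agent.P352.N86.K.C5
import Vale.Agent.P352.H15.V9

/-!
# P352: null-plane charges imply conformal invariance: definitions
-/

set_option linter.all false

noncomputable section

open MeasureTheory Filter Topology SchwartzMap Complex
open scoped SchwartzMap ComplexConjugate ContDiff LineDeriv

namespace Vale.Agent.P352.NC

open GF (Ix V Fn Fld Theory Sch IsLor bas eta o sim pd tr ev bar)
open H246 H496 H755 H15 H846 H246R H746 N86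
open UniformSpace (Completion)

variable {D : Type*} [NormedAddCommGroup D] [InnerProductSpace ℂ D]

/-- the energy operator -/
def Hm (A : (V → V) → D → D) : D → D := A (fun _ => bas o 1)

/-- the generator of the translations in the direction `x` -/
def Pg (A : (V → V) → D → D) (x : V) : D → D := A (fun _ => x)

/-- the second derivative of the deviation of `K a` from a special conformal generator, in the
direction `x` (the integral of the trace of `T` over a null hyperplane, up to a constant) -/
def Xi (A : (V → V) → D → D) (K : V → D → D) (a x : V) (v : D) : D :=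
  (2 : ℂ) • Pg A x (K a (Pg A x v)) - K a (Pg A x (Pg A x v)) - Pg A x (Pg A x (K a v)) -
    (2 : ℂ) • A (fun _ => cK a x) v

/-- half of the null vector `nu 1`, `n0·nu(-1) = 1` -/
def n0 : V := (1 / 2 : ℝ) • nu 1

/-- `Xi` in the frame -/
def Th (A : (V → V) → D → D) (K : V → D → D) : D → D := Xi A K n0 (nu (-1))

/-- the vectors `∑ T^{mn}(g_mn) Ω` -/
def tvec (Q : Theory D) (T : Ix → Ix → Fld D) (g : Ix → Ix → 𝓢(Mink, ℂ)) : D :=
  ∑ m, ∑ n, T m n (fl (g m n)) Q.vac

/-- the value at the origin of a distribution `Φ` -/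
def pv (Φ : Fn → D) (v : D) : ℂ :=
  Classical.epsilon (Val (fun f => ((Φ f : D) : Completion D)) v)

/-- `lm` is the family of the values at the origin of the distributions `Φ b`, which behave like
the components `J_b` or `T_bb` along the null vectors `b` -/
structure PV (Q : Theory D) (A : (V → V) → D → D) (Φ : V → Fn → D) (lm : V → D → ℂ) : Prop where
  add : ∀ b v w, lm b (v + w) = lm b v + lm b w
  smul : ∀ b (c : ℂ) v, lm b (c • v) = c * lm b v
  rep : ∀ b (F : 𝓢(Mink, ℂ)) v, inner ℂ (Φ b (fl F)) v =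
    ∫ x : Mink, conj (F x) * lm b (U1 Q (-x) v)
  cont : ∀ b v, Continuous fun x : Mink => lm b (U1 Q (-x) v)
  bdd : ∀ b, ∃ (C : ℝ) (n : ℕ), 0 ≤ C ∧ ∀ v, ‖lm b v‖ ≤ C * ‖pw1 (Hm A) n v‖
  wd : ∀ (t : ℝ) v, lm (nu (-1)) (H496.Wd Q t v) =
    (((Real.exp t ^ 2)⁻¹ : ℝ) : ℂ) * lm (nu (-1)) v
  cov : ∀ (L : Ix → V) a b v, IsLor L → sim 1 L 0 a = b → lm b (Q.U 1 L 0 v) = lm a v

end Vale.Agent.P352.NC

end
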