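import Vale.Agent.P352.NC.E1

/-!
# P352: `Xi a x` depends only on `a·x`
-/

set_option linter.all false

noncomputable section

open MeasureTheory Filter Topology SchwartzMap Complex
open scoped SchwartzMap ComplexConjugate ContDiff LineDeriv

namespace Vale.Agent.P352.NC

open GF (Ix V Fn Fld Theory Sch IsLor bas o sim pd tr ev bar)
open H246 H496 H755 H15 H846 H246R H746 N86
open UniformSpace (Completion)

variable {D : Type*} [NormedAddCommGroup D] [InnerProductSpace ℂ D]
variable {Q : GF.Theory D} {T : Ix → Ix → GF.Fld D} {J : Ix → GF.Fld D}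
variable {A : (V → V) → D → D} {K : V → D → D}

section

variable (hT : Q.IsStress T) (h : NullCharges Q T J A K)
include hT h

/-- `Xi` does not depend on the component along the null plane -/
lemma e2_shift {a w : V} (ha : IsNull a) (hw : GF.mdot a w = 0) (x : V) (v : D) :
    Xi A K a (x + w) v = Xi A K a x v := by
  have R := h.toRep
  have hX := const_sim x
  have hW := const_sim w
  have k1 := e1_KP hT h ha hw
  have p1 := e1_AP R (e1_yw_sim a w) x v
  have p2 := e1_AP R (e1_yw_sim a w) w v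
  have y0 : e1_yw a w 0 = 0 := by
    funext n
    simp [e1_yw, GF.mdot]
  have e1 : A (fun _ => cK a (x + w)) v = A (fun _ => cK a x) v + A (fun _ => e1_yw a w x) v +
      ((1 / 2 : ℝ) : ℂ) • A (fun _ => e1_yw a w w) v := by
    have e : (fun _ : V => cK a (x + w)) =
        fun _ => (cK a x + e1_yw a w x) + (1 / 2 : ℝ) • e1_yw a w w := by
      funext _ n
      simp only [cK, e1_yw, md_add, md_add_l, hw, Pi.add_apply, Pi.sub_apply, Pi.smul_apply,
        smul_eq_mul]
      rw [md_comm x w]
      ring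
    rw [e, e1_lin R, e1_addv R]
  rw [y0, sub_zero] at p1 p2
  unfold Xi Pg
  simp only [e1_addv R, e1_add R hX, e1_add R hW, e1_Kadd hT h ha, e1]
  have q1 : K a (A (fun _ => x) (A (fun _ => w) v)) =
      A (fun _ => w) (K a (A (fun _ => x) v)) - I • A (e1_yw a w) (A (fun _ => x) v) := by
    rw [e1_PP R x w, k1]
  have q2 : K a (A (fun _ => w) (A (fun _ => x) v)) =
      A (fun _ => w) (K a (A (fun _ => x) v)) - I • A (e1_yw a w) (A (fun _ => x) v) := k1 _
  have q3 : K a (A (fun _ => w) (A (fun _ => w) v)) =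
      A (fun _ => w) (K a (A (fun _ => w) v)) - I • A (e1_yw a w) (A (fun _ => w) v) := k1 _
  have q4 : A (fun _ => x) (A (fun _ => w) (K a v)) = A (fun _ => x) (K a (A (fun _ => w) v)) +
      I • A (fun _ => x) (A (e1_yw a w) v) := by
    rw [k1, e1_sub R hX, e1_smul R hX, sub_add_cancel]
  have q5 : A (fun _ => w) (A (fun _ => x) (K a v)) = A (fun _ => x) (K a (A (fun _ => w) v)) +
      I • A (fun _ => x) (A (e1_yw a w) v) := by
    rw [e1_PP R w x, q4]
  have q6 : A (fun _ => w) (A (fun _ => w) (K a v)) = A (fun _ => w) (K a (A (fun _ => w) v)) +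
      I • A (fun _ => w) (A (e1_yw a w) v) := by
    rw [k1, e1_sub R hW, e1_smul R hW, sub_add_cancel]
  rw [q1, q2, q3, q4, q5, q6, p1, p2]
  simp only [smul_add, smul_sub, smul_smul]
  have hI : I * I = -1 := I_mul_I
  rw [hI]
  module

lemma e2_sq {a : V} (ha : IsNull a) (x : V) {y : V} (hy : GF.mdot a y ≠ 0) (v : D) :
    Xi A K a x v = ((GF.mdot a x ^ 2 / GF.mdot a y ^ 2 : ℝ) : ℂ) • Xi A K a y v := by
  set t : ℝ := GF.mdot a x / GF.mdot a y with ht
  have hw : GF.mdot a (x - t • y) = 0 := by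
    rw [md_sub, md_smul, ht, div_mul_cancel₀ _ hy, sub_self]
  have h1 := e2_shift hT h ha hw (t • y) v
  rw [add_sub_cancel] at h1
  rw [h1, e1_quad hT h ha, ht, div_pow]

lemma e2_zero {a : V} (ha : IsNull a) {x : V} (hx : GF.mdot a x = 0) (v : D) :
    Xi A K a x v = 0 := by
  have h1 := e2_shift hT h ha hx 0 v
  have h2 := e1_quad hT h ha 0 0 v
  rw [zero_add] at h1
  rw [zero_smul] at h2
  rw [h1, h2]
  simp

/-- `Xi` commutes with the translations along the null plane -/
lemma e2_comm {a w : V} (ha : IsNull a) (hw : GF.mdot a w = 0) (x : V) (v : D) :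
    Xi A K a x (Q.U 1 GF.one w v) = Q.U 1 GF.one w (Xi A K a x v) := by
  have R := h.toRep
  have hX := const_sim x
  have hY := e1_isSimY a w
  have hU := U_smul (Q := Q) one_pos isLor_one w
  have hUa := U_add (Q := Q) one_pos isLor_one w
  have hUs := H746.U_sub' (Q := Q) one_pos isLor_one w
  set z0 : V := Yx a w x - Yx a w 0 with hz0
  have p : ∀ u, A (Yx a w) (A (fun _ => x) u) = A (fun _ => x) (A (Yx a w) u) -
      I • A (fun _ => z0) u := fun u => e1_AP R hY x u
  have pz := e1_PP R z0 x v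
  unfold Xi Pg
  simp only [e1_PU R, e1_KU hT h ha hw, e1_add R hX, hUa, hU, hUs]
  simp only [p, e1_sub R hX, e1_smul R hX, pz, hUs, hU]
  module

end

theorem Xi_dep (hT : Q.IsStress T) (h : NullCharges Q T J A K) {a : V} (ha : IsNull a) {x y : V}
    (hxy : GF.mdot a x = GF.mdot a y) (v : D) : Xi A K a x v = Xi A K a y v := by
  have hw : GF.mdot a (x - y) = 0 := by rw [md_sub, hxy, sub_self]
  have h1 := e2_shift hT h ha hw y v
  rwa [add_sub_cancel] at h1

theorem Xi_comm (hT : Q.IsStress T) (h : NullCharges Q T J A K) {a : V} (ha : IsNull a) {w : V}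
    (hw : GF.mdot a w = 0) (x : V) (v : D) :
    Xi A K a x (Q.U 1 GF.one w v) = Q.U 1 GF.one w (Xi A K a x v) :=
  e2_comm hT h ha hw x v

end Vale.Agent.P352.NC

end
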