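import Vale.Agent.P352.NC.E8
import Vale.Agent.P352.NC.E9a

/-!
# P352: all null vectors and all points
-/

set_option linter.all false

noncomputable section

open MeasureTheory Filter Topology SchwartzMap Complex
open scoped SchwartzMap ComplexConjugate ContDiff LineDeriv

namespace Vale.Agent.P352.NC

open GF (Ix V Fn Fld Theory Sch IsLor bas eta o sim pd tr ev bar)
open H246 H496 H755 H15 H846 H246R H746 N86
open UniformSpace (Completion)

variable {D : Type*} [NormedAddCommGroup D] [InnerProductSpace ℂ D]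
variable {Q : GF.Theory D} {T : Ix → Ix → GF.Fld D} {J : Ix → GF.Fld D}
variable {A : (V → V) → D → D} {K : V → D → D}

theorem all_zero (hT : Q.IsStress T) (h : NullCharges Q T J A K) {Φ : V → Fn → D}
    {lm : V → D → ℂ} (P : PV Q A Φ lm) (g : Ix → Ix → 𝓢(Mink, ℂ)) {a b : V} (ha : IsNull a)
    (hb : IsNull b) (hab : GF.mdot a b = 1) (hb0 : b o = 1) (x : V) :
    lm b (Q.U 1 GF.one (-x) (Xi A K a b (Xi A K a b (tvec Q T g)))) = 0 :=
  all_zero_of hT h P (fun g u => frame_zero hT h P g u) g ha hb hab hb0 x

end Vale.Agent.P352.NC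

end
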