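import Vale.Agent.P352.NC.E13a
import Vale.Agent.P352.NC.E11

/-!
# P352: null-plane charges imply conformal invariance
-/

set_option linter.all false

noncomputable section

open MeasureTheory Filter Topology SchwartzMap Complex
open scoped SchwartzMap ComplexConjugate ContDiff LineDeriv

namespace Vale.Agent.P352.NC

open GF (Ix V Fn Fld Theory Sch IsLor bas eta o sim pd tr ev bar)
open H246 H496 H755 H15 H846 H246R H746 N86
open UniformSpace (Completion)

variable {D : Type*} [NormedAddCommGroup D] [InnerProductSpace ℂ D]
variable {Q : GF.Theory D} {T : Ix → Ix → GF.Fld D} {J : Ix → GF.Fld D}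
variable {A : (V → V) → D → D} {K : V → D → D}

theorem trNull (hT : Q.IsStress T) (hJ : IsVirial Q T J) (h : NullCharges Q T J A K) :
    H121.TrNull T := e13_trNull hT hJ h fun a x g ha => Xi_zero hT hJ h ha x g

theorem confInv (hT : Q.IsStress T) (hJ : IsVirial Q T J) (h : NullCharges Q T J A K) :
    N86.ConfInv Q T := ((main_v9 hT hJ).1 h).2.1.1 (trNull hT hJ h)

end Vale.Agent.P352.NC

end
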