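import Vale.Agent.P352.NC.Defs

/-!
# P352, block E4: adjoints, commutation of the energy, uniform bounds along the rotations
-/

set_option linter.all false

noncomputable section

open MeasureTheory Filter Topology SchwartzMap Complex
open scoped SchwartzMap ComplexConjugate ContDiff LineDeriv NNReal

namespace Vale.Agent.P352.NC

open GF (Ix V Fn Fld Theory Sch IsLor bas eta o sim pd tr ev bar)
open H246 H496 H755 H15 H846 H246R H746 N86
open UniformSpace (Completion)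

variable {D : Type*} [NormedAddCommGroup D] [InnerProductSpace ℂ D]
variable {Q : GF.Theory D} {T : Ix → Ix → GF.Fld D} {J : Ix → GF.Fld D}
variable {A : (V → V) → D → D} {K : V → D → D}

theorem hasAdj_A (R : H15.Rep Q A) {r : ℝ} {X : V → V} (hX : IsSim r X) : HasAdj (A X) :=
  ⟨A X, A_symm R hX⟩

theorem hasAdj_pw1 (R : H15.Rep Q A) (n : ℕ) : HasAdj (pw1 (Hm A) n) := by
  induction n with
  | zero => exact ⟨fun v => v, fun v w => rfl⟩
  | succ n ih =>
    obtain ⟨Y, hY⟩ := ih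
    refine ⟨fun w => Y w + Hm A (Y w), fun v w => ?_⟩
    show inner ℂ (pw1 (Hm A) n (v + Hm A v)) w = _
    have h1 : inner ℂ (Hm A v) (Y w) = inner ℂ v (Hm A (Y w)) :=
      A_symm R (const_sim (bas o 1)) v (Y w)
    rw [hY, inner_add_left, inner_add_right, h1]

/-- operators that commute with the energy commute with its powers -/
lemma e4_pw_comm {W : D → D} (hadd : ∀ v w, W (v + w) = W v + W w)
    (hH : ∀ v, Hm A (W v) = W (Hm A v)) (n : ℕ) (v : D) :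
    pw1 (Hm A) n (W v) = W (pw1 (Hm A) n v) := by
  induction n generalizing v with
  | zero => rfl
  | succ n ih =>
    show pw1 (Hm A) n (W v + Hm A (W v)) = W (pw1 (Hm A) n (v + Hm A v))
    rw [hH, ← hadd, ih]

theorem pw1_rot (R : H15.Rep Q A) (n : ℕ) (θ ψ : ℝ) (v : D) :
    pw1 (Hm A) n (Q.U 1 (Rt θ ψ) 0 v) = Q.U 1 (Rt θ ψ) 0 (pw1 (Hm A) n v) := by
  refine e4_pw_comm (W := fun v => Q.U 1 (Rt θ ψ) 0 v) (U_add one_pos (isLor_Rt θ ψ) 0)
    (fun v => ?_) n v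
  have h := A_conj R (const_sim (bas o 1)) one_pos (isLor_Rt θ ψ) 0 v
  have e : (fun z : V => (1 : ℝ) • sim 1 (Rt θ ψ) 0 ((fun _ : V => bas o 1)
      (sim 1⁻¹ (linv (Rt θ ψ)) 0 (z - 0)))) = fun _ => bas o 1 := by
    funext z n
    rw [one_smul]
    fin_cases n <;> simp [sim, Rt, bas, o, Fin.sum_univ_four]
  rw [e] at h
  exact h.symm

theorem pw1_U1 (R : H15.Rep Q A) (n : ℕ) (x : Mink) (v : D) :
    pw1 (Hm A) n (U1 Q x v) = U1 Q x (pw1 (Hm A) n v) := by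
  refine e4_pw_comm (W := fun v => U1 Q x v) (U1_add x) (fun v => ?_) n v
  have h := A_conj R (const_sim (bas o 1)) one_pos isLor_one x.ofLp v
  have e : (fun z : V => (1 : ℝ) • sim 1 GF.one 0 ((fun _ : V => bas o 1)
      (sim 1⁻¹ (linv GF.one) 0 (z - x.ofLp)))) = fun _ => bas o 1 := by
    funext z n
    rw [one_smul, sim_one]
    simp
  rw [e] at h
  exact h.symm

lemma e4_linv_U (R : H15.Rep Q A) {L : Ix → V} (hL : GF.IsLor L) (v : D) :
    Q.U 1 (linv L) 0 (Q.U 1 L 0 v) = v := by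
  have h := U_linv' R one_pos (isLor_linv hL) v
  have e : linv (linv L) = L := by
    funext m n
    unfold linv
    linear_combination (L m n * (GF.eta m * GF.eta m)) * eta_sq n + L m n * eta_sq m
  rwa [e, inv_one] at h

/-- the rotated vectors -/
lemma e4_U_rot (hT : Q.IsStress T) (R : H15.Rep Q A) (θ ψ : ℝ) (F : 𝓢(Mink, ℂ)) (m n : Ix) :
    Q.U 1 (linv (Rt θ ψ)) 0 (T m n (fl F) Q.vac) = ∑ k, ∑ l, (Rt θ ψ k m * Rt θ ψ l n : ℂ) •
      T k l (fl (compLam (isLor_Rt θ ψ) F)) Q.vac := by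
  have hL := isLor_Rt θ ψ
  have h2 := hT.cov m n 1 (Rt θ ψ) 0 (fl F) Q.vac one_pos hL (isTest_fl F)
  rw [Q.U_vac _ _ _ one_pos hL] at h2
  rw [h2, N86.U_sum one_pos (isLor_linv hL)]
  refine Finset.sum_congr rfl fun k _ => ?_
  rw [N86.U_sum one_pos (isLor_linv hL)]
  refine Finset.sum_congr rfl fun l _ => ?_
  rw [U_smul one_pos (isLor_linv hL), e4_linv_U R hL, fl_sim 1 one_pos hL 0, simS_lam]

theorem bdd_rotT (hT : Q.IsStress T) (R : H15.Rep Q A) {B : D → D} (hB : HasAdj B)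
    (g : Ix → Ix → 𝓢(Mink, ℂ)) :
    ∃ C, ∀ θ ψ, ‖B (Q.U 1 (linv (Rt θ ψ)) 0 (tvec Q T g))‖ ≤ C := by
  have hf : ∀ m n, Q.fld (T m n) := fun m n => Q.bose_fld _ (hT.bose m n)
  choose K hK using fun m n => exists_adjL hB (hf m n)
  have h1 : ∀ m n, ∃ (s : Finset (ℕ × ℕ)) (C : ℝ≥0), ∀ F,
      ‖K m n F‖ ≤ C * (s.sup (schwartzSeminormFamily ℂ Mink ℂ)) F := by
    intro m n
    obtain ⟨s, C, h⟩ := bdd_fam (fun _ : Unit => K m n) fun F => ⟨_, fun _ => le_rfl⟩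
    exact ⟨s, C, fun F => h () F⟩
  choose s C hsC using h1
  obtain ⟨Y, hY⟩ := id hB
  have hadd : ∀ (t : Finset Ix) (f : Ix → D), B (∑ k ∈ t, f k) = ∑ k ∈ t, B (f k) := by
    intro t f
    exact map_sum (⟨⟨B, fun v w => Adj.add hY v w⟩, fun c v => Adj.smul hY c v⟩ : D →ₗ[ℂ] D) f t
  have hsm : ∀ (c : ℂ) v, B (c • v) = c • B v := fun c v => Adj.smul hY c v
  refine ⟨∑ m, ∑ n, ∑ k, ∑ l,
    C k l * ((s k l).sup (schwartzSeminormFamily ℂ Mink ℂ)) (g m n), fun θ ψ => ?_⟩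
  unfold tvec
  rw [N86.U_sum one_pos (isLor_linv (isLor_Rt θ ψ)), hadd]
  refine (norm_sum_le _ _).trans (Finset.sum_le_sum fun m _ => ?_)
  rw [N86.U_sum one_pos (isLor_linv (isLor_Rt θ ψ)), hadd]
  refine (norm_sum_le _ _).trans (Finset.sum_le_sum fun n _ => ?_)
  rw [e4_U_rot hT R, hadd]
  refine (norm_sum_le _ _).trans (Finset.sum_le_sum fun k _ => ?_)
  rw [hadd]
  refine (norm_sum_le _ _).trans (Finset.sum_le_sum fun l _ => ?_)
  rw [hsm, norm_smul]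
  have h2 := hsC k l (compLam (isLor_Rt θ ψ) (g m n))
  rw [hK, Completion.norm_coe] at h2
  have h3 : ‖((Rt θ ψ k m : ℂ) * (Rt θ ψ l n : ℂ))‖ ≤ 1 := by
    rw [norm_mul, Complex.norm_real, Complex.norm_real, Real.norm_eq_abs, Real.norm_eq_abs]
    exact mul_le_one₀ (abs_Rt_le θ ψ k m) (abs_nonneg _) (abs_Rt_le θ ψ l n)
  calc _ ≤ 1 * ‖B (T k l (fl (compLam (isLor_Rt θ ψ) (g m n))) Q.vac)‖ := by gcongr
    _ ≤ C k l * ((s k l).sup (schwartzSeminormFamily ℂ Mink ℂ))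
          (compLam (isLor_Rt θ ψ) (g m n)) := by
        rw [one_mul]; exact h2
    _ ≤ _ := by
        gcongr
        exact semi_rot θ ψ (g m n) (s k l)

end Vale.Agent.P352.NC

end
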