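import Vale.Agent.P352.N86.K.PT2

/-!
# P352: values at the origin of covariant vector valued distributions
-/

set_option linter.all false

noncomputable section

open MeasureTheory Filter Topology SchwartzMap Complex
open scoped SchwartzMap ComplexConjugate ContDiff LineDeriv

namespace Vale.Agent.P352.NC

open GF (Ix V Fn Fld Theory Sch IsLor bas eta o sim pd tr ev bar)
open H246 H496 H755 H15 H846 H246R H746 N86
open UniformSpace (Completion)

variable {D : Type*} [NormedAddCommGroup D] [InnerProductSpace ℂ D]
variable {Q : GF.Theory D} {T : Ix → Ix → GF.Fld D} {J : Ix → GF.Fld D}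
variable {A : (V → V) → D → D}

/-- values at the origin of covariant vector valued distributions -/
theorem exists_val (R : H15.Rep Q A) (κ : 𝓢(Mink, ℂ) →L[ℂ] Completion D)
    (hcov : ∀ (g : 𝓢(Mink, ℂ)) (a : Mink) (z : D),
      inner ℂ ((U1 Q a z : D) : Completion D) (κ (tauS a g)) = inner ℂ (z : Completion D) (κ g)) :
    ∃ (φ : Completion D) (n : ℕ), ∀ (F : 𝓢(Mink, ℂ)) (v : D),
      inner ℂ (κ F) (v : Completion D) =
        ∫ x : Mink, conj (F x) * inner ℂ φ ((pw1 (Hm A) n (U1 Q (-x) v) : D) : Completion D) := by
  obtain ⟨φ, n, h⟩ := PT.exists_ptF (PT.en_of R) κ hcov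
  exact ⟨φ, n, h.rep⟩

/-- continuity of translations -/
theorem cont_tr (R : H15.Rep Q A) (φ : Completion D) (v : D) :
    Continuous fun x : Mink => inner ℂ φ ((U1 Q (-x) v : D) : Completion D) :=
  continuous_const.inner ((Completion.continuous_coe D).comp
    ((continuous_U1a (Q := Q) v).comp continuous_neg))

end Vale.Agent.P352.NC

end
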