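import Vale.Agent.P352.NC.E4
import Vale.Agent.P352.N86.X.LW

/-!
# P352, block E7: the lemma of Howe-Moore type for the components along the null vectors
-/

set_option linter.all false

noncomputable section

open MeasureTheory Filter Topology SchwartzMap Complex
open scoped SchwartzMap ComplexConjugate ContDiff LineDeriv

namespace Vale.Agent.P352.NC

open GF (Ix V Fn Fld Theory Sch IsLor bas eta o sim pd tr ev bar)
open H246 H496 H755 H15 H846 H246R H746 N86
open UniformSpace (Completion)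

variable {D : Type*} [NormedAddCommGroup D] [InnerProductSpace ℂ D]
variable {Q : GF.Theory D} {T : Ix → Ix → GF.Fld D} {J : Ix → GF.Fld D}
variable {A : (V → V) → D → D} {K : V → D → D}

theorem e7_pf (R : H15.Rep Q A) {Φ : V → Fn → D} {lm : V → D → ℂ} (P : PV Q A Φ lm) :
    PF Q (lm (nu (-1))) where
  add := P.add _
  smul := P.smul _
  cont := P.cont _
  bdd := by
    intro v
    obtain ⟨C, n, hC, h⟩ := P.bdd (nu (-1))
    refine ⟨C * ‖pw1 (Hm A) n v‖, fun x => ?_⟩
    have h1 := h (U1 Q x v)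
    rwa [pw1_U1 R, U1_norm] at h1
  rep := fun F => ⟨Φ (nu (-1)) (fl F), fun v => P.rep _ F v⟩
  wd := P.wd

theorem lemW' (R : H15.Rep Q A) {Φ : V → Fn → D} {lm : V → D → ℂ} (P : PV Q A Φ lm)
    {B : D → D} (hB : HasAdj B) (hc : ∀ t v, B (H496.Wd Q t v) = H496.Wd Q t (B v)) (c : ℝ × ℝ)
    (u : ℝ) (v : D) : lm (nu (-1)) (Q.U 1 GF.one (-(u • nu (-1)))
      (B (Rn Q ((2 : ℝ) • c) v - (2 : ℂ) • Rn Q c v + v))) = 0 :=
  lw_main R (e7_pf R P) hB hc c u v

end Vale.Agent.P352.NC

end
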