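import Vale.Agent.P352.H15.V9
import Vale.Agent.P352.N86.Defs

/-!
# P352: null-plane charges imply conformal invariance: the final statement
-/

set_option linter.all false

noncomputable section

open MeasureTheory Filter Topology SchwartzMap
open scoped SchwartzMap ComplexConjugate ContDiff

namespace Vale.Agent.P352.NC

open GF (Ix V Fn Fld Theory Sch IsLor bas eta o sim pd tr improve ev bar Sep)
open H246 H496 H755 H15 H846
open H121 (TrNull)

variable {D : Type*} [NormedAddCommGroup D] [InnerProductSpace ℂ D]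
variable {Q : GF.Theory D} {T : Ix → Ix → GF.Fld D} {J : Ix → GF.Fld D}
  {A : (V → V) → D → D} {K : V → D → D}

/-- the consequences of the on-shell constraint -/
theorem main_of_tr (hT : Q.IsStress T) (hJ : IsVirial Q T J) (h : NullCharges Q T J A K)
    (ht : TrNull T) :
    TrNull T ∧ N86.ConfInv Q T ∧ (NoFlux T J → H746.AddK K) ∧
      (TGen Q → ConfGen Q A K ∧ (NoFlux T J → ∃ L : Fld D, ∀ Q₁ : Theory D, IsEnl Q Q₁ →
        ∃ Q₂ : Theory D, IsEnl Q₁ Q₂ ∧ Q₂.IsScalar L 2 ∧ Q₂.IsStress (improve T L) ∧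
          IsImpr Q₂ T (improve T L) ∧ ConfAct Q₂ (improve T L) ∧
          (∀ r X, IsSim r X → Chg Q₂ (improve T L) X (A X)) ∧
          ∀ a, IsNull a → Chg Q₂ (improve T L) (cK a) (K a))) := by
  obtain ⟨h1, h2, h3⟩ := main_v9 (A := A) (K := K) hT hJ
  obtain ⟨-, k2, -, -, k5, -, k7⟩ := h1 h
  refine ⟨ht, k2.1 ht, fun hF => k5 hF ht, fun hg => ⟨(k7 hg).2 ht, fun hF => ?_⟩⟩
  obtain ⟨L, hL⟩ := h2 ((k7 hg).2 ht) (Or.inl h.mom)
  refine ⟨L, fun Q₁ he => ?_⟩
  obtain ⟨Q₂, e1, e2, e3, e4, e5, e6⟩ := hL Q₁ he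
  obtain ⟨f1, f2⟩ := e6 h hF
  exact ⟨Q₂, e1, e2, e3, e4, e5, f1, f2⟩

end Vale.Agent.P352.NC

end
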